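import Mathlib
import Vale.Agent.P026.Main

namespace Vale.Agent.Results.P026.QuasiRH

theorem result : (∃ σ₀ : ℝ, σ₀ < 1 ∧ ∀ s : ℂ, σ₀ < s.re → riemannZeta s ≠ 0) ∧
    ∀ s : ℂ, 26 / 27 < s.re → riemannZeta s ≠ 0 :=
  ⟨⟨26 / 27, by norm_num, Vale.Agent.P026.Main.zeta_ne_zero⟩, Vale.Agent.P026.Main.zeta_ne_zero⟩

end Vale.Agent.Results.P026.QuasiRH
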